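import Vale.Agent.H7.Quadric

namespace Vale.Agent.Results.P027.A_QuadricObstruction

open Vale.Agent.H7

/-- Let `g` be a polynomial of total degree at most two over `ℚ` in any family of variables, `i₀`
one of the variables, and `A` the set of `i₀`-th coordinates of the rational zeros of `g` (the
subset of `ℚ` that `g` defines existentially). If `A` has three distinct elements, then no point
of `A` is isolated; in particular `A` is neither `ℤ` nor `ℕ`. -/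
theorem result {σ : Type*} (i₀ : σ) (g : MvPolynomial σ ℚ) (hg : g.totalDegree ≤ 2)
    (A : Set ℚ) (hA : A = {t : ℚ | ∃ v : σ → ℚ, v i₀ = t ∧ MvPolynomial.eval v g = 0}) :
    ((∃ a ∈ A, ∃ b ∈ A, ∃ c ∈ A, a ≠ b ∧ b ≠ c ∧ a ≠ c) →
      ∀ b ∈ A, ∀ ε : ℚ, 0 < ε → ∃ t ∈ A, 0 < |t - b| ∧ |t - b| < ε) ∧
    A ≠ Set.range (Int.cast : ℤ → ℚ) ∧ A ≠ Set.range (Nat.cast : ℕ → ℚ) := by
  have key : ∀ a ∈ A, ∀ b ∈ A, ∀ c ∈ A, a ≠ b → b ≠ c → a ≠ c → ∀ ε : ℚ, 0 < ε →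
      ∃ t ∈ A, 0 < |t - b| ∧ |t - b| < ε := by
    intro a ha b hb c hc hab hbc hac ε hε
    rw [hA] at ha hb hc
    obtain ⟨Pa, rfl, hPa⟩ := ha
    obtain ⟨Pb, rfl, hPb⟩ := hb
    obtain ⟨Pc, rfl, hPc⟩ := hc
    obtain ⟨v, hv, hpos, hlt⟩ := quadric_key i₀ g hg Pa Pb Pc hPa hPb hPc hab hbc hac ε hε
    refine ⟨v i₀, ?_, hpos, hlt⟩
    rw [hA]
    exact ⟨v, rfl, hv⟩
  have part1 : (∃ a ∈ A, ∃ b ∈ A, ∃ c ∈ A, a ≠ b ∧ b ≠ c ∧ a ≠ c) →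
      ∀ b ∈ A, ∀ ε : ℚ, 0 < ε → ∃ t ∈ A, 0 < |t - b| ∧ |t - b| < ε := by
    rintro ⟨a₀, ha₀, b₀, hb₀, c₀, hc₀, hab, hbc, hac⟩ b hb ε hε
    by_cases h1 : b = a₀
    · subst h1
      exact key b₀ hb₀ b hb c₀ hc₀ hab.symm hac hbc ε hε
    by_cases h2 : b = b₀
    · subst h2
      exact key a₀ ha₀ b hb c₀ hc₀ hab hbc hac ε hε
    · exact key a₀ ha₀ b hb b₀ hb₀ (Ne.symm h1) h2 hab ε hε
  refine ⟨part1, ?_, ?_⟩
  · intro hZ
    have m0 : (0 : ℚ) ∈ A := by rw [hZ]; exact ⟨0, by simp⟩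
    have m1 : (1 : ℚ) ∈ A := by rw [hZ]; exact ⟨1, by simp⟩
    have m2 : (2 : ℚ) ∈ A := by rw [hZ]; exact ⟨2, by simp⟩
    obtain ⟨t, ht, hpos, hlt⟩ :=
      part1 ⟨0, m0, 1, m1, 2, m2, by norm_num, by norm_num, by norm_num⟩ 0 m0 1 one_pos
    rw [hZ] at ht
    obtain ⟨n, rfl⟩ := ht
    rw [sub_zero] at hpos hlt
    have h1 : |n| < 1 := by exact_mod_cast hlt
    have h2 : n = 0 := by
      rw [abs_lt] at h1; omega
    subst h2
    simp at hpos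
  · intro hN
    have m0 : (0 : ℚ) ∈ A := by rw [hN]; exact ⟨0, by simp⟩
    have m1 : (1 : ℚ) ∈ A := by rw [hN]; exact ⟨1, by simp⟩
    have m2 : (2 : ℚ) ∈ A := by rw [hN]; exact ⟨2, by simp⟩
    obtain ⟨t, ht, hpos, hlt⟩ :=
      part1 ⟨0, m0, 1, m1, 2, m2, by norm_num, by norm_num, by norm_num⟩ 0 m0 1 one_pos
    rw [hN] at ht
    obtain ⟨n, rfl⟩ := ht
    rw [sub_zero] at hpos hlt
    have h1 : (n : ℚ) < 1 := by
      rw [abs_lt] at hlt; exact hlt.2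
    have h2 : n = 0 := by
      have : n < 1 := by exact_mod_cast h1
      omega
    subst h2
    simp at hpos

end Vale.Agent.Results.P027.A_QuadricObstruction
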